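import Mathlib.Analysis.VonNeumannAlgebra.Basic
import Mathlib.Analysis.InnerProductSpace.Adjoint

namespace Vale.Agent.P096.Lin

variable {H : Type*} [NormedAddCommGroup H] [InnerProductSpace ℂ H] [CompleteSpace H]

/-- `M` is linearly near `N` with constant `δ`: every finite family of elements `x i` of `M` can be
approximated by elements `y i` of `N` in such a way that all linear combinations satisfy
`‖∑ c i • y i - ∑ c i • x i‖ ≤ δ * ‖∑ c i • x i‖`. -/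
def LinNear (M N : VonNeumannAlgebra H) (δ : ℝ) : Prop :=
  ∀ (n : ℕ) (x : Fin n → (H →L[ℂ] H)), (∀ i, x i ∈ M) →
    ∃ y : Fin n → (H →L[ℂ] H), (∀ i, y i ∈ N) ∧
      ∀ c : Fin n → ℂ, ‖∑ i, c i • (y i - x i)‖ ≤ δ * ‖∑ i, c i • x i‖

/-- `N` is complemented in the linear space `M + N` by a projection of norm at most `K`. -/
def Complemented (M N : VonNeumannAlgebra H) (K : ℝ) : Prop :=
  ∃ E : (H →L[ℂ] H) →ₗ[ℂ] (H →L[ℂ] H),
    (∀ x ∈ M, ∀ y ∈ N, E (x + y) ∈ N ∧ ‖E (x + y)‖ ≤ K * ‖x + y‖) ∧ ∀ y ∈ N, E y = y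

/-- `u M u* = N` for a unitary operator `u` with `‖u - 1‖ ≤ r`. -/
def NearConj (M N : VonNeumannAlgebra H) (r : ℝ) : Prop :=
  ∃ u ∈ unitary (H →L[ℂ] H), ‖u - 1‖ ≤ r ∧
    (fun x => u * x * star u) '' (M : Set (H →L[ℂ] H)) = N

end Vale.Agent.P096.Lin
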